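import Crest.Agent.H3.RI.Apx

set_option autoImplicit false

open Crest.Agent.H2.RP MeasureTheory Set Crest.Agent.H9.RI

noncomputable section

namespace Crest.Agent.H3.RI.CD

open Apx

/-- bounded measurable real function -/
def BR (v : Cir → ℝ) : Prop := ∃ C, RB v C

namespace BR
variable {u v : Cir → ℝ}
theorem int (h : BR v) : Integrable v mu := by
  obtain ⟨C, hm, hC⟩ := h
  exact Integrable.of_bound hm.aestronglyMeasurable C (Filter.Eventually.of_forall hC)
theorem const (c : ℝ) : BR fun _ => c := ⟨|c|, measurable_const, fun _ => le_rfl⟩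
theorem add (hu : BR u) (hv : BR v) : BR fun x => u x + v x := by
  obtain ⟨C, hm, hC⟩ := hu
  obtain ⟨D, hm', hD⟩ := hv
  exact ⟨C + D, hm.add hm', fun x => (abs_add_le _ _).trans (add_le_add (hC x) (hD x))⟩
theorem sub (hu : BR u) (hv : BR v) : BR fun x => u x - v x := by
  obtain ⟨C, hm, hC⟩ := hu
  obtain ⟨D, hm', hD⟩ := hv
  exact ⟨C + D, hm.sub hm', fun x => (abs_sub _ _).trans (add_le_add (hC x) (hD x))⟩
theorem mul (hu : BR u) (hv : BR v) : BR fun x => u x * v x := by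
  obtain ⟨C, hm, hC⟩ := hu
  obtain ⟨D, hm', hD⟩ := hv
  exact ⟨C * D, hm.mul hm', fun x => by
    rw [abs_mul]; exact mul_le_mul (hC x) (hD x) (abs_nonneg _) ((abs_nonneg _).trans (hC x))⟩
theorem abs (hu : BR u) : BR fun x => |u x| := by
  obtain ⟨C, hm, hC⟩ := hu
  exact ⟨C, hm.abs, fun x => by rw [abs_abs]; exact hC x⟩
theorem comp (hu : BR u) {π : Cir → Cir} (hπ : Measurable π) : BR fun x => u (π x) := by
  obtain ⟨C, hm, hC⟩ := hu
  exact ⟨C, hm.comp hπ, fun x => hC _⟩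
theorem ind {S : Set Cir} (hS : MeasurableSet S) : BR (S.indicator fun _ => (1 : ℝ)) :=
  ⟨1, measurable_const.indicator hS, fun x => by by_cases h : x ∈ S <;> simp [h]⟩
theorem of01 (hm : Measurable u) (h : ∀ x, 0 ≤ u x ∧ u x ≤ 1) : BR u :=
  ⟨1, hm, fun x => by rw [abs_of_nonneg (h x).1]; exact (h x).2⟩
end BR

variable {θ : ℝ} {L : ℕ} {D : Set Cir} {pos rem : Cir → ℕ}

/-- centred position -/
def pc (pos rem : Cir → ℕ) (x : Cir) : ℝ := ((pos x : ℝ) - rem x + 1) / 2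
def Th (pos rem : Cir → ℕ) (x : Cir) : ℝ := (pos x : ℝ) * rem x / 2
/-- block start -/
def st (θ : ℝ) (pos : Cir → ℕ) (x : Cir) : Cir := mv θ x (-(pos x : ℤ))

lemma mc : Measurable fun n : ℕ => (n : ℝ) := measurable_from_top

lemma RB_pc (G : Geo θ L D pos rem) : RB (pc pos rem) (L / 2) := by
  refine ⟨(((mc.comp G.mpos).sub (mc.comp G.mrem)).add_const 1).div_const 2, fun x => ?_⟩
  have a : (pos x : ℝ) + 1 ≤ L := by exact_mod_cast G.lt x
  have b : (rem x : ℝ) ≤ L := by exact_mod_cast G.rL x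
  have c : (1 : ℝ) ≤ rem x := by exact_mod_cast G.r1 x
  have d : (0 : ℝ) ≤ pos x := Nat.cast_nonneg _
  rw [pc, abs_le]; constructor <;> linarith

lemma Th_nonneg (x : Cir) : 0 ≤ Th pos rem x := by rw [Th]; positivity

lemma Th_le (G : Geo θ L D pos rem) (x : Cir) : Th pos rem x ≤ (L : ℝ) ^ 2 / 2 := by
  have a : (pos x : ℝ) ≤ L := by exact_mod_cast (G.lt x).le
  have b : (rem x : ℝ) ≤ L := by exact_mod_cast G.rL x
  rw [Th, sq]; gcongr

lemma BR_Th (G : Geo θ L D pos rem) : BR (Th pos rem) :=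
  ⟨_, ((mc.comp G.mpos).mul (mc.comp G.mrem)).div_const 2, fun x => by
    rw [abs_of_nonneg (Th_nonneg x)]; exact Th_le G x⟩

lemma pc_eq (G : Geo θ L D pos rem) (x : Cir) :
    pc pos rem x = Th pos rem x - Th pos rem (mv θ x 1) := by
  by_cases h : mv θ x 1 ∈ D
  · obtain ⟨a, b⟩ := G.stepD x h
    simp only [pc, Th, a, b]; push_cast; ring
  · obtain ⟨a, b⟩ := G.stepN x h
    simp only [pc, Th, a, b]; push_cast; ring

lemma pc_step (G : Geo θ L D pos rem) {x : Cir} (h : mv θ x 1 ∉ D) :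
    pc pos rem (mv θ x 1) = pc pos rem x + 1 := by
  obtain ⟨a, b⟩ := G.stepN x h
  simp only [pc, a, b]; push_cast; ring

lemma st_step (G : Geo θ L D pos rem) {x : Cir} (h : mv θ x 1 ∉ D) :
    st θ pos (mv θ x 1) = st θ pos x := by
  obtain ⟨a, _⟩ := G.stepN x h
  rw [st, st, mv_mv, a]; congr 1; push_cast; ring

lemma meas_st (G : Geo θ L D pos rem) : Measurable (st θ pos) := by
  have : Measurable fun z : Cir × ℕ => mv θ z.1 (-(z.2 : ℤ)) :=
    measurable_from_prod_countable_left fun n : ℕ => meas_mv θ (-(n : ℤ))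
  have h2 : Measurable fun x : Cir => (x, pos x) := measurable_id.prodMk G.mpos
  exact this.comp h2

lemma int_ind {S : Set Cir} (hS : MeasurableSet S) :
    ∫ x, S.indicator (fun _ => (1 : ℝ)) x ∂mu = mu.real S := by
  rw [integral_indicator hS]; simp

lemma int_pc (G : Geo θ L D pos rem) : ∫ x, pc pos rem x ∂mu = 0 := by
  simp only [pc_eq G]
  rw [integral_sub (BR_Th G).int ((BR_Th G).comp (meas_mv θ 1)).int, int_mv θ 1 (Th pos rem),
    sub_self]

/-- part (c) -/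
theorem partC (G : Geo θ L D pos rem) {ρ : Cir → ℝ} (mρ : Measurable ρ)
    (r01 : ∀ x, 0 ≤ ρ x ∧ ρ x ≤ 1) {Z : Set Cir} (mZ : MeasurableSet Z) (L0 : (0 : ℝ) < L)
    (hZ : mu.real Z ≤ 1 / (L : ℝ) ^ 2)
    (hmono : ∀ S, MeasurableSet S → (∀ x ∈ S, x ∉ Z ∧ mv θ x 1 ∉ D) →
      ∫ x in S, ρ x ∂mu - mu.real Z ≤ ∫ x in S, ρ (mv θ x 1) ∂mu) :
    ∫ x, |ρ (mv θ x 1) - ρ x| * ((pos (mv θ x 1) : ℝ) * rem (mv θ x 1) / 2) ∂mu ≤
      ∫ x, ρ x * pc pos rem x ∂mu + 2 := by
  have bρ := BR.of01 mρ r01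
  have bρ' := bρ.comp (meas_mv θ 1)
  have bT := BR_Th G
  have bT' := bT.comp (meas_mv θ 1)
  set S : Set Cir := {x | x ∉ Z ∧ mv θ x 1 ∉ D ∧ ρ (mv θ x 1) < ρ x} with hS
  have mS : MeasurableSet S :=
    mZ.compl.inter (((meas_mv θ 1) G.mD).compl.inter (measurableSet_lt (mρ.comp (meas_mv θ 1)) mρ))
  have h1 := hmono S mS fun x hx => ⟨hx.1, hx.2.1⟩
  have e1 : ∫ x, (ρ (mv θ x 1) - ρ x) * Th pos rem (mv θ x 1) ∂mu =
      ∫ x, ρ x * pc pos rem x ∂mu := by
    simp only [pc_eq G, sub_mul, mul_sub]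
    rw [integral_sub (bρ'.mul bT').int (bρ.mul bT').int, integral_sub (bρ.mul bT).int
      (bρ.mul bT').int, int_mv θ 1 (fun x => ρ x * Th pos rem x)]
  have i1 := ((bρ'.sub bρ).mul bT').int
  have i2 : Integrable (fun x => (L : ℝ) ^ 2 * S.indicator (fun x => ρ x - ρ (mv θ x 1)) x) mu :=
    ((bρ.sub bρ').int.indicator mS).const_mul _
  have i3 : Integrable (fun x => (L : ℝ) ^ 2 * Z.indicator (fun _ => (1 : ℝ)) x) mu :=
    (BR.ind mZ).int.const_mul _
  refine (integral_mono ((bρ'.sub bρ).abs.mul bT').int (i1.add (i2.add i3)) fun x => ?_).trans ?_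
  · have a := Th_nonneg (pos := pos) (rem := rem) (mv θ x 1)
    have b := Th_le G (mv θ x 1)
    have c := r01 x
    have d := r01 (mv θ x 1)
    simp only [Pi.add_apply]
    rcases le_or_gt (ρ x) (ρ (mv θ x 1)) with h | h
    · have : x ∉ S := fun hx => absurd hx.2.2 (not_lt.2 h)
      rw [abs_of_nonneg (sub_nonneg.2 h), indicator_of_notMem this]
      have : 0 ≤ Z.indicator (fun _ => (1 : ℝ)) x := indicator_nonneg (fun _ _ => zero_le_one) x
      nlinarith [sq_nonneg (L : ℝ)]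
    · rw [abs_of_neg (sub_neg.2 h)]
      by_cases hz : x ∈ Z
      · have : x ∉ S := fun hx => hx.1 hz
        rw [indicator_of_notMem this, indicator_of_mem hz]
        nlinarith
      · rw [indicator_of_notMem hz]
        by_cases hD : mv θ x 1 ∈ D
        · have : x ∉ S := fun hx => hx.2.1 hD
          have t0 : Th pos rem (mv θ x 1) = 0 := by simp [Th, (G.stepD x hD).1]
          rw [indicator_of_notMem this, t0]; simp
        · rw [indicator_of_mem (show x ∈ S from ⟨hz, hD, h⟩)]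
          nlinarith
  · rw [integral_add' i1 (i2.add i3), integral_add' i2 i3, e1, integral_const_mul,
      integral_const_mul, int_ind mZ, integral_indicator mS,
      integral_sub bρ.int.integrableOn bρ'.int.integrableOn]
    have : (L : ℝ) ^ 2 * mu.real Z ≤ 1 := by
      rw [le_div_iff₀ (by positivity)] at hZ; linarith
    nlinarith [sq_nonneg (L : ℝ)]

/-- part (d) -/
theorem partD (G : Geo θ L D pos rem) (hD : mu.real D ≤ 8 / L) {ρ ρ₀ φ σ : Cir → ℝ}
    (mρ : Measurable ρ) (r01 : ∀ x, 0 ≤ ρ x ∧ ρ x ≤ 1) (bρ₀ : BR ρ₀) (mφ : Measurable φ)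
    (φ01 : ∀ x, 0 ≤ φ x ∧ φ x ≤ 1) (bσ : BR σ) {t ω a e c : ℝ} (t0 : 0 ≤ t) (t1 : t ≤ 1)
    (ht : ∫ x, ρ x ∂mu = t) (ht₀ : ∫ x, ρ₀ x ∂mu = t)
    (hω : ∫ x, |ρ x - φ (st θ pos x)| ∂mu ≤ ω) (ha : ∫ x, |σ x| ∂mu ≤ a)
    (he : |∫ x, (σ x + ρ x - ρ₀ x) * φ (st θ pos x) ∂mu| ≤ e)
    (hs : Slow θ ρ₀ (20 / L) c) : ∫ x, ρ x ^ 2 ∂mu ≤ t ^ 2 + 2 * ω + c + a + e := by
  have bρ := BR.of01 mρ r01
  have bψ := (BR.of01 mφ φ01).comp (meas_st G)
  have ω0 : 0 ≤ ω := (integral_nonneg fun x => abs_nonneg _).trans hω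
  have h1 := hs (fun x => φ (st θ pos x)) ⟨mφ.comp (meas_st G), fun x => by
    rw [abs_of_nonneg (φ01 _).1]; exact (φ01 _).2⟩ (by
      have bi := (BR.ind G.mD).comp (meas_mv θ 1)
      refine (integral_mono ((bψ.comp (meas_mv θ 1)).sub bψ).abs.int bi.int fun x => ?_).trans ?_
      · by_cases h : mv θ x 1 ∈ D
        · have := φ01 (st θ pos x)
          have := φ01 (st θ pos (mv θ x 1))
          simp only [indicator_of_mem h]
          rw [abs_le]; constructor <;> linarith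
        · simp [st_step G h, h]
      · rw [int_mv θ 1 (D.indicator fun _ => (1 : ℝ)), int_ind G.mD]
        refine hD.trans ?_
        gcongr; norm_num)
  rw [ht₀] at h1
  simp only [sub_mul] at h1
  rw [integral_sub (bρ₀.mul bψ).int ((BR.const t).mul bψ).int, integral_const_mul] at h1
  simp only [sub_mul, add_mul] at he
  rw [integral_sub ((bσ.mul bψ).add (bρ.mul bψ)).int (bρ₀.mul bψ).int,
    integral_add (bσ.mul bψ).int (bρ.mul bψ).int] at he
  have h2 : ∫ x, ρ x ^ 2 ∂mu ≤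
      ∫ x, ρ x * φ (st θ pos x) ∂mu + ∫ x, |ρ x - φ (st θ pos x)| ∂mu := by
    rw [← integral_add (bρ.mul bψ).int (bρ.sub bψ).abs.int]
    refine integral_mono (by simpa only [sq] using (bρ.mul bρ).int)
      ((bρ.mul bψ).add (bρ.sub bψ).abs).int fun x => ?_
    have := r01 x
    have := le_abs_self (ρ x - φ (st θ pos x))
    have := abs_nonneg (ρ x - φ (st θ pos x))
    simp only
    nlinarith
  have h3 : ∫ x, φ (st θ pos x) ∂mu ≤ ∫ x, ρ x ∂mu + ∫ x, |ρ x - φ (st θ pos x)| ∂mu := by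
    rw [← integral_add bρ.int (bρ.sub bψ).abs.int]
    refine integral_mono bψ.int (bρ.add (bρ.sub bψ).abs).int fun x => ?_
    have := neg_abs_le (ρ x - φ (st θ pos x))
    simp only
    linarith
  have h4 : -∫ x, |σ x| ∂mu ≤ ∫ x, σ x * φ (st θ pos x) ∂mu := by
    rw [← integral_neg]
    refine integral_mono bσ.abs.int.neg (bσ.mul bψ).int fun x => ?_
    have := φ01 (st θ pos x)
    have := neg_abs_le (σ x)
    have := abs_nonneg (σ x)
    simp only
    nlinarith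
  have h5 := le_of_abs_le h1
  have h6 := le_of_abs_le he
  rw [ht] at h3
  nlinarith

end Crest.Agent.H3.RI.CD
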